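import Vale.Agent.P231.P1.SiLin

/-!
# P231, stage 3, S3-P: families of linear maps near a point
-/

set_option linter.unusedSectionVars false
set_option linter.unusedVariables false

open MeasureTheory Set Module Filter Topology
open scoped ContDiff

namespace Vale.Agent.P231.P1

noncomputable section

open Vale.Agent.P231.Fm Vale.Agent.P231.W Vale.Agent.P231.H584 Vale.Agent.P231.Co
open Vale.Agent.P231.Fm (Sm Dif Form Lam)

variable {F : Type} [NormedAddCommGroup F] [InnerProductSpace ℝ F] [FiniteDimensional ℝ F]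
variable {E : Type} [NormedAddCommGroup E] [NormedSpace ℝ E] [FiniteDimensional ℝ E]

/-- an injective linear map is bounded below -/
theorem exists_low {g : F →L[ℝ] F} (h : ∀ y, g y = 0 → y = 0) :
    ∃ N : ℝ, 0 < N ∧ ∀ y, ‖y‖ ≤ N * ‖g y‖ := by
  obtain ⟨K, hK, hg⟩ := (g : F →ₗ[ℝ] F).exists_antilipschitzWith
    (LinearMap.ker_eq_bot'.2 h)
  refine ⟨K, by exact_mod_cast hK, fun y => ?_⟩
  have h1 := hg.le_mul_dist y 0
  rw [dist_zero_right, map_zero, dist_zero_right] at h1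
  exact h1

theorem det_ne {g : F →L[ℝ] F} (h : ∀ y, g y = 0 → y = 0) :
    LinearMap.det (g : F →ₗ[ℝ] F) ≠ 0 := by
  intro h0
  obtain ⟨y, hy, hy'⟩ := (LinearMap.hasEigenvalue_zero_tfae (g : F →ₗ[ℝ] F)).out 3 5 |>.1 h0
  exact hy (h y hy')

/-- a family of linear maps which are injective at a point is a good family near the point -/
theorem exists_gl {g : E → F →L[ℝ] F} {x : E} (hg : Sm g x) (hi : ∀ y, g x y = 0 → y = 0) :
    ∃ O : Set E, IsOpen O ∧ x ∈ O ∧ ∃ N : ℝ, ∀ O' : Set E, O' ⊆ O →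
      Gl ((Dif.lin E).on O') g N (LinearMap.det (g x : F →ₗ[ℝ] F) *
        |LinearMap.det (g x : F →ₗ[ℝ] F)|⁻¹) := by
  obtain ⟨N, hN, hlow⟩ := exists_low hi
  have hdet := det_ne hi
  have hc : ContinuousAt (fun s => LinearMap.det (g s : F →ₗ[ℝ] F)) x :=
    ContinuousAt.comp (f := g) (g := fun f : F →L[ℝ] F => f.det)
      ContinuousLinearMap.continuous_det.continuousAt hg.continuousAt
  have h1 : ∀ᶠ s in 𝓝 x, 0 < LinearMap.det (g x : F →ₗ[ℝ] F) *
      LinearMap.det (g s : F →ₗ[ℝ] F) :=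
    (continuousAt_const.mul hc).eventually (lt_mem_nhds (mul_self_pos.2 hdet))
  have h2 : ∀ᶠ s in 𝓝 x, ‖g s - g x‖ < (2 * N)⁻¹ := by
    have h3 : ContinuousAt (fun s => ‖g s - g x‖) x :=
      (hg.continuousAt.sub continuousAt_const).norm
    refine h3.eventually (gt_mem_nhds ?_)
    change ‖g x - g x‖ < _
    rw [sub_self, norm_zero]
    positivity
  obtain ⟨O, hO, hO1, hO2⟩ := eventually_nhds_iff.1 ((h1.and h2).and hg)
  refine ⟨O, hO1, hO2, 2 * N, fun O' hO' => ⟨?_, ?_, ?_, ?_⟩⟩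
  · intro E' _ _ _ u z hu
    have hu1 : Sm u z := hu.1
    refine Sm.comp (f := g) (g := u) ?_ hu1
    have h3 : u z ∈ O := hO' hu.2.self_of_nhds
    filter_upwards [hO1.mem_nhds h3] with s hs using (hO s hs).2
  · intro E' _ _ _ u z hu ξ
    have h3 : u z ∈ O := hO' hu.2.self_of_nhds
    have h4 := (hO _ h3).1.2
    have h5 : ‖g x ξ‖ ≤ ‖g (u z) ξ‖ + (2 * N)⁻¹ * ‖ξ‖ := by
      have h6 : g x ξ = g (u z) ξ - (g (u z) - g x) ξ := by
        rw [_root_.sub_apply]
        abel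
      rw [h6]
      refine (norm_sub_le _ _).trans (add_le_add le_rfl ?_)
      exact ((g (u z) - g x).le_opNorm ξ).trans (mul_le_mul_of_nonneg_right h4.le (norm_nonneg _))
    have h7 := hlow ξ
    have h8 : N * ‖g x ξ‖ ≤ N * ‖g (u z) ξ‖ + ‖ξ‖ / 2 := by
      have h9 := mul_le_mul_of_nonneg_left h5 hN.le
      refine h9.trans (le_of_eq ?_)
      field_simp
    nlinarith [norm_nonneg ξ, norm_nonneg (g (u z) ξ)]
  · intro E' _ _ _ u z hu h4
    have h3 : u z ∈ O := hO' hu.2.self_of_nhds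
    have h5 := (hO _ h3).1.1
    rw [h4, mul_zero] at h5
    exact lt_irrefl _ h5
  · intro E' _ _ _ u z hu
    have h3 : u z ∈ O := hO' hu.2.self_of_nhds
    have h5 := (hO _ h3).1.1
    rcases lt_or_gt_of_ne hdet with h6 | h6
    · have h7 : LinearMap.det (g (u z) : F →ₗ[ℝ] F) < 0 := by
        by_contra h8
        exact absurd h5 (not_lt.2 (mul_nonpos_of_nonpos_of_nonneg h6.le (not_lt.1 h8)))
      rw [abs_of_neg h6, abs_of_neg h7, inv_neg, inv_neg, mul_neg, mul_neg,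
        mul_inv_cancel₀ h7.ne, mul_inv_cancel₀ h6.ne]
    · have h7 : 0 < LinearMap.det (g (u z) : F →ₗ[ℝ] F) := by
        by_contra h8
        exact absurd h5 (not_lt.2 (mul_nonpos_of_nonneg_of_nonpos h6.le (not_lt.1 h8)))
      rw [abs_of_pos h6, abs_of_pos h7, mul_inv_cancel₀ h7.ne', mul_inv_cancel₀ h6.ne']

theorem sgn_sq {d : ℝ} (h : d ≠ 0) : d * |d|⁻¹ = 1 ∨ d * |d|⁻¹ = -1 := by
  rcases lt_or_gt_of_ne h with h6 | h6
  · right
    rw [abs_of_neg h6, inv_neg, mul_neg, mul_inv_cancel₀ h6.ne]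
  · left
    rw [abs_of_pos h6, mul_inv_cancel₀ h6.ne']

end

end Vale.Agent.P231.P1
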