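import Vale.Agent.P231.P1.Indep

/-!
# P231, stage 3, S3-P (P1): the basic classes of degree `8`, and the relation for `u ^ 2`
-/

set_option linter.unusedSectionVars false
set_option linter.unusedVariables false

open MeasureTheory Set Module Filter Topology
open scoped ContDiff Real

namespace Vale.Agent.P231.P1

open Fm W H584
open Fm.Form (IsDeg part isDeg_part part_add part_smul part_succ_d)

section Sys

variable {B U M : Type*} {dB : Dif B} {dU : Dif U} {dM : Dif M} {D c : ℝ}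
  (S : Sys dB dU dM 1 D c) {κU : Form dU}

theorem uU_deg (hFd : IsDeg 8 S.F) (hα : IsDeg 1 S.α) (hκ6 : IsDeg 6 κU) :
    IsDeg 8 (S.uU κU) := by
  have h1 : IsDeg 8 S.Fx := IsDeg.pull hFd S.foot S.hfoot
  have h2 : IsDeg 9 (((2 * D)⁻¹ • S.α) * S.Fx) := (hα.smul _).mul h1
  have h3 : IsDeg 8 S.xU := isDeg_J S.hφU.map (2 * D) h2
  have h4 : IsDeg 8 (S.eU * κU) := (hα.d.smul _).mul hκ6
  exact h3.add h4

/-- the normalised primitive in degree `6` -/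
theorem part6 (hFd : IsDeg 8 S.F) (hκe : κU.sg = κU) (hκb : Basic S.φU S.hφU.map κU)
    (hκd : κU.d = S.vU) (hκ : Eqv S.hφ.map (S.kB κU) ((1 / 2 : ℝ) • S.b1)) :
    ∃ κ : Form dU, IsDeg 6 κ ∧ κ.sg = κ ∧ Basic S.φU S.hφU.map κ ∧ κ.d = S.vU ∧
      Eqv S.hφ.map (S.kB κ) ((1 / 2 : ℝ) • S.b1) := by
  refine ⟨part 6 κU, isDeg_part 6 κU, (isDeg_part 6 κU).sg_of_even (by decide),
    basic_part 6 hκb, ?_, ?_⟩
  · rw [← part_succ_d, hκd]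
    exact S.vU_deg hFd
  · obtain ⟨u, hu, hu'⟩ := hκ
    refine ⟨part 5 u, basic_part 5 hu, ?_⟩
    have h1 := congrArg (part 6) hu'
    rw [Sys.kB, sub_eq_add_neg, part_add, part_add, part_smul, (Sys.b1_deg hFd).part_eq,
      (S.kg_deg hFd).part_eq, part_succ_d, ← neg_one_smul ℝ, part_smul, neg_one_smul,
      ← sub_eq_add_neg] at h1
    rw [Sys.kB, ← h1]
    congr 1
    exact (Form.part_pull 6 S.pi S.hpi κU).symm

variable (hκe : κU.sg = κU) (hκb : Basic S.φU S.hφU.map κU) (hκd : κU.d = S.vU)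
include hκe hκb hκd

/-- `u` is cohomologous to `x` -/
theorem uU_exact : ∃ η : Form dU, S.uU κU = S.Fx + η.d := by
  have h1 := Gh_eq S.hφU S.T2 S.hα S.hαo S.Fx_good.1
  rw [Gh_def] at h1
  have h2 : (((2 * D)⁻¹ • S.α) * κU).d = S.eU * κU - ((2 * D)⁻¹ • S.α) * S.vU := by
    rw [Form.d_mul, Form.d_smul, Form.sg_smul, S.hαo, hκd, smul_neg, neg_mul, Sys.eU]
    abel
  refine ⟨((2 * D)⁻¹ • S.α) * κU - lam S.φU S.hφU.map (2 * D) S.Fx, ?_⟩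
  rw [Form.d_sub, h2, Sys.uU]
  have h3 : S.xU = S.Fx - (lam S.φU S.hφU.map (2 * D) S.Fx).d -
      ((2 * D)⁻¹ • S.α) * S.vU := by
    rw [h1]
    change S.xU = S.xU + ((2 * D)⁻¹ • S.α) * S.vU - ((2 * D)⁻¹ • S.α) * S.vU
    abel
  rw [h3]
  abel

/-- **(P1 ii)** the basic classes of degree `8` -/
theorem basic8 (hud : IsDeg 8 (S.uU κU))
    (H0 : ∀ w : Form dU, IsDeg 0 w → w.d = 0 → ∃ r : ℝ, w = r • 1)
    (H2 : ∀ w : Form dU, IsDeg 2 w → w.d = 0 → ∃ κ : Form dU, w = κ.d)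
    (H4 : ∀ w : Form dU, IsDeg 4 w → w.d = 0 → ∃ κ : Form dU, w = κ.d)
    (H6 : ∀ w : Form dU, IsDeg 6 w → w.d = 0 → ∃ κ : Form dU, w = κ.d)
    (H8 : ∀ w : Form dU, IsDeg 8 w → w.d = 0 → ∃ (r : ℝ) (κ : Form dU), w = r • S.Fx + κ.d)
    {w : Form dU} (hw : IsDeg 8 w) (hwd : w.d = 0) (hwb : Basic S.φU S.hφU.map w) :
    ∃ c₁ c₂ : ℝ, Eqv S.hφU.map w (c₁ • S.eU ^ 4 + c₂ • S.uU κU) := by
  obtain ⟨hu1, hu2, hu3⟩ := S.uU_good hκe hκb hκd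
  obtain ⟨r, κ, hκ⟩ := H8 w hw hwd
  obtain ⟨η, hη⟩ := uU_exact S hκe hκb hκd
  have h1 : w - r • S.uU κU = (κ - r • η).d := by
    rw [hη, hκ, Form.d_sub, Form.d_smul, smul_add]
    abel
  obtain ⟨w6, a6, b6, c6, d6⟩ := step0 S.hφU S.T2 S.hα S.hαo (k := 6) (hw.sub (hud.smul r))
    (Basic.sub hwb (Basic.smul r hu3)) h1
  obtain ⟨κ6, h6⟩ := H6 w6 a6 c6
  obtain ⟨w4, a4, b4, c4, d4⟩ := step0 S.hφU S.T2 S.hα S.hαo (k := 4) a6 b6 h6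
  obtain ⟨κ4, h4⟩ := H4 w4 a4 c4
  obtain ⟨w2, a2, b2, c2, d2⟩ := step0 S.hφU S.T2 S.hα S.hαo (k := 2) a4 b4 h4
  obtain ⟨κ2, h2⟩ := H2 w2 a2 c2
  obtain ⟨w0, a0, b0, c0, d0⟩ := step0 S.hφU S.T2 S.hα S.hαo (k := 0) a2 b2 h2
  obtain ⟨γ, rfl⟩ := H0 w0 a0 c0
  have hee : (2 * D)⁻¹ • S.α.d = S.eU := rfl
  rw [hee] at d6 d4 d2 d0
  have s2 := d2.trans (d0.mul S.eU_sg S.eU_d S.eU_basic)
  have s4 := d4.trans (s2.mul S.eU_sg S.eU_d S.eU_basic)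
  have s6 := d6.trans (s4.mul S.eU_sg S.eU_d S.eU_basic)
  refine ⟨γ, r, ?_⟩
  have s8 := s6.add (Eqv.refl (r • S.uU κU))
  have e1 : w - r • S.uU κU + r • S.uU κU = w := by abel
  have e2 : S.eU * (S.eU * (S.eU * (S.eU * (γ • 1)))) = γ • S.eU ^ 4 := by
    simp only [mul_smul_comm, mul_one, pow_succ, pow_zero, one_mul, mul_assoc]
  rwa [e1, e2] at s8

/-- **the relation for `u ^ 2` on `U`** -/
theorem u_sq (hP : S.PP) (hFd : IsDeg 8 S.F)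
    (hκ : Eqv S.hφ.map (S.kB κU) ((1 / 2 : ℝ) • S.b1)) {a μ : ℝ} {ρ : Form dB}
    (hρ : Basic S.φ S.hφ.map ρ)
    (hrel : S.b1 ^ 2 = a • S.e ^ 6 + μ • (S.e ^ 2 * (S.G1 + S.G2)) + ρ.d)
    {ε : ℝ} (hε : ε ≠ 0) {l : Form dB} (hl : S.b1 = ε • S.b0 + l.d) :
    Eqv S.hφU.map ((12 : ℝ) • S.uU κU ^ 2 + a • S.eU ^ 8 +
      (2 * μ) • (S.eU ^ 4 * S.uU κU)) 0 := by
  obtain ⟨e', b', u', he, hb, hu, hr1, -⟩ := rels S hκe hκb hκd hκ hρ hrel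
  set Q := Ideal.Quotient.mkₐ ℝ (Exa S.φ S.hφ.map) with hQ
  have hsm : ∀ (r : ℝ) (w : Bas S.φ S.hφ.map), Q (r • w) = r • Q w := fun r w => rfl
  change (12 : ℝ) • (Q b' * Q u' ^ 2) + a • (Q b' * Q e' ^ 8) +
          (2 * μ) • (Q b' * (Q e' ^ 4 * Q u')) = 0 at hr1
  have h1 : Q (b' * ((12 : ℝ) • u' ^ 2 + a • e' ^ 8 + (2 * μ) • (e' ^ 4 * u'))) = Q 0 := by
    rw [map_zero, ← hr1]
    simp only [map_add, hsm, map_mul, map_pow, mul_add, mul_smul_comm]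
  obtain ⟨κ, hκ1, hκ2⟩ := quot_eq S.φ S.hφ.map h1
  have h2 : ((b' * ((12 : ℝ) • u' ^ 2 + a • e' ^ 8 + (2 * μ) • (e' ^ 4 * u')) :
      Bas S.φ S.hφ.map) : Form dB) = S.b1 * Form.pull S.pi S.hpi ((12 : ℝ) • S.uU κU ^ 2 +
        a • S.eU ^ 8 + (2 * μ) • (S.eU ^ 4 * S.uU κU)) := by
    have h3 : ((b' * ((12 : ℝ) • u' ^ 2 + a • e' ^ 8 + (2 * μ) • (e' ^ 4 * u')) :
      Bas S.φ S.hφ.map) : Form dB) = (b' : Form dB) * ((12 : ℝ) • (u' : Form dB) ^ 2 +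
        a • (e' : Form dB) ^ 8 + (2 * μ) • ((e' : Form dB) ^ 4 * (u' : Form dB))) := rfl
    rw [h3, he, hb, hu, pull_add, pull_add, pull_smul, pull_smul, pull_smul, pull_pow, pull_mul,
      pull_pow, pull_pow, S.pi_eU]
  have h4 : ((0 : Bas S.φ S.hφ.map) : Form dB) = 0 := rfl
  rw [h2, h4, zero_add] at hκ2
  have h5 := congrArg S.P hκ2
  rw [S.hPm, Sys.P_b1 hP hFd hl, S.hPd, smul_mul_assoc, one_mul] at h5
  have hk : ε * S.k ≠ 0 := mul_ne_zero hε S.hk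
  refine ⟨(ε * S.k)⁻¹ • S.P κ, Basic.smul _ (hP.bas κ hκ1), ?_⟩
  rw [zero_add, Form.d_smul, ← h5, smul_smul, inv_mul_cancel₀ hk, one_smul]

end Sys

end Vale.Agent.P231.P1
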