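import Vale.Agent.P231.H584.Kap
import Vale.Agent.P231.H584.Int

/-!
# P231, stage 3, S3-P (P1): the basic classes `e ^ 11` and `e ^ 7 u` are independent
-/

set_option linter.unusedSectionVars false
set_option linter.unusedVariables false

open MeasureTheory Set Module Filter Topology
open scoped ContDiff Real

namespace Vale.Agent.P231.P1

open Fm W H584
open Fm.Form (IsDeg part isDeg_part part_add part_smul part_succ_d)

section Alg

variable {R : Type*} [CommRing R] [Algebra ℝ R]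

/-- the relations of the ring of basic classes -/
theorem rel_alg {e u k x1 x2 b : R} {a μ : ℝ}
    (r1 : x1 = u + e * k) (r2 : x1 - x2 = e * b) (r3 : 2 * k = b)
    (r4 : b ^ 2 = a • e ^ 6 + μ • (e ^ 2 * (x1 + x2)))
    (r5 : b * (x2 ^ 2 + x2 * x1 + x1 ^ 2) = 0) (h1 : x1 ^ 3 = 0) (h2 : x2 ^ 3 = 0) :
    (12 : ℝ) • (b * u ^ 2) + a • (b * e ^ 8) + (2 * μ) • (b * (e ^ 4 * u)) = 0 ∧
      a • (b * (e ^ 8 * u)) + (2 * μ) • (b * (e ^ 4 * u ^ 2)) = 0 := by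
  obtain ⟨h, hh⟩ : ∃ h : R, h = algebraMap ℝ R (1 / 2) := ⟨_, rfl⟩
  have e0 : 2 * h = 1 := by
    rw [hh, ← map_ofNat (algebraMap ℝ R) 2, ← map_mul, ← map_one (algebraMap ℝ R)]
    congr 1
    norm_num
  obtain ⟨A, hA⟩ : ∃ A : R, A = algebraMap ℝ R a := ⟨_, rfl⟩
  obtain ⟨m, hm⟩ : ∃ m : R, m = algebraMap ℝ R μ := ⟨_, rfl⟩
  have e2 : algebraMap ℝ R (2 * μ) = 2 * m := by rw [map_mul, map_ofNat, hm]
  have e12 : algebraMap ℝ R 12 = 12 := map_ofNat _ _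
  simp only [Algebra.smul_def] at r4 ⊢
  rw [e2, e12, ← hA, ← hm] at *
  have k1 : k = h * b := by linear_combination (-k) * e0 + h * r3
  have s1 : x1 = u + e * (h * b) := by rw [r1, k1]
  have s2 : x2 = u - e * (h * b) := by linear_combination s1 - r2 + (e * b) * e0
  have s3 : x1 + x2 = 2 * u := by rw [s1, s2]; ring
  have r4' : b ^ 2 = A * e ^ 6 + 2 * m * (e ^ 2 * u) := by rw [r4, s3]; ring
  have q0 : h ^ 2 * 4 = 1 := by linear_combination (2 * h + 1) * e0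
  -- first relation
  have t1 : 12 * (b * u ^ 2) + A * (b * e ^ 8) + 2 * m * (b * (e ^ 4 * u)) = 0 := by
    have h5 : b * (3 * u ^ 2 + e ^ 2 * (h ^ 2 * b ^ 2)) = 0 := by
      have : x2 ^ 2 + x2 * x1 + x1 ^ 2 = 3 * u ^ 2 + e ^ 2 * (h ^ 2 * b ^ 2) := by
        rw [s1, s2]; ring
      rw [← this]
      exact r5
    rw [r4'] at h5
    linear_combination 4 * h5 - b * (A * e ^ 8 + 2 * m * (e ^ 4 * u)) * q0
  refine ⟨t1, ?_⟩
  -- second relation
  have h6 : 2 * u ^ 3 + 6 * (u * (e ^ 2 * (h ^ 2 * b ^ 2))) = 0 := by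
    have : x1 ^ 3 + x2 ^ 3 = 2 * u ^ 3 + 6 * (u * (e ^ 2 * (h ^ 2 * b ^ 2))) := by
      rw [s1, s2]; ring
    rw [← this, h1, h2, add_zero]
  rw [r4'] at h6
  have h7 : 8 * (A * (b * (e ^ 8 * u)) + 2 * m * (b * (e ^ 4 * u ^ 2))) = 0 := by
    linear_combination 6 * b * h6 - u * t1 -
      9 * b * (A * (e ^ 8 * u) + 2 * m * (e ^ 4 * u ^ 2)) * q0
  obtain ⟨g, hg⟩ : ∃ g : R, g = algebraMap ℝ R (1 / 8) := ⟨_, rfl⟩
  have e8 : g * 8 = 1 := by
    rw [hg, ← map_ofNat (algebraMap ℝ R) 8, ← map_mul, ← map_one (algebraMap ℝ R)]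
    congr 1
    norm_num
  linear_combination g * h7 - (A * (b * (e ^ 8 * u)) + 2 * m * (b * (e ^ 4 * u ^ 2))) * e8

end Alg

/-- the numerical part -/
theorem num {A B C a μ c₁ c₂ : ℝ} (ha : a ≠ 0) (hA : A ≠ 0) (h1 : 12 * C + a * A + 2 * μ * B = 0)
    (h2 : a * B + 2 * μ * C = 0) (h3 : c₁ * A + c₂ * B = 0) (h4 : c₁ * B + c₂ * C = 0) :
    c₁ = 0 ∧ c₂ = 0 := by
  have hC : C ≠ 0 := by
    rintro rfl
    have hB : B = 0 := by
      have : a * B = 0 := by linarith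
      exact (mul_eq_zero.1 this).resolve_left ha
    rw [hB] at h1
    have : a * A = 0 := by linarith
    exact (mul_ne_zero ha hA) this
  have hdet : a * (A * C - B ^ 2) = -(12 * C ^ 2) := by
    linear_combination C * h1 - B * h2
  have hdet0 : A * C - B ^ 2 ≠ 0 := by
    intro h0
    rw [h0, mul_zero] at hdet
    have : C ^ 2 = 0 := by linarith
    exact hC (pow_eq_zero_iff (two_ne_zero) |>.1 this)
  have k1 : c₁ * (A * C - B ^ 2) = 0 := by linear_combination C * h3 - B * h4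
  have k2 : c₂ * (A * C - B ^ 2) = 0 := by linear_combination A * h4 - B * h3
  exact ⟨(mul_eq_zero.1 k1).resolve_right hdet0, (mul_eq_zero.1 k2).resolve_right hdet0⟩

section Sys

variable {B U M : Type*} {dB : Dif B} {dU : Dif U} {dM : Dif M} {D c : ℝ}
  (S : Sys dB dU dM 1 D c) {κU : Form dU}

/-- the functional of the contact form -/
noncomputable def La : Form dB →ₗ[ℝ] ℝ where
  toFun w := S.I (S.P (S.αB * w))
  map_add' v w := by rw [mul_add, map_add, map_add]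
  map_smul' r w := by
    rw [mul_smul_comm, map_smul, map_smul]
    rfl

theorem La_d {κ : Form dB} (hκ : Basic S.φ S.hφ.map κ) : La S κ.d = 0 := by
  have h1 := S.hId (S.αB * κ)
  rw [Form.d_mul, S.αB_sg, neg_mul, map_add, map_add, map_neg, map_neg] at h1
  have h2 : S.I (S.P (S.αB.d * κ)) = 0 :=
    S.hIφ _ (Basic.mul (basic_d_contact S.hφ S.αB_flow) hκ)
  rw [h2, zero_add] at h1
  exact neg_eq_zero.1 h1

theorem La_eqv {v w : Form dB} (h : Eqv S.hφ.map v w) : La S v = La S w := by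
  obtain ⟨u, hu, rfl⟩ := h
  rw [map_add, La_d S hu, add_zero]

theorem La_quot {v w : Bas S.φ S.hφ.map} (h : Ideal.Quotient.mk (Exa S.φ S.hφ.map) v =
    Ideal.Quotient.mk (Exa S.φ S.hφ.map) w) : La S v = La S w :=
  La_eqv S (quot_eq S.φ S.hφ.map h)

/-- the volume -/
theorem La_vol {N : ℕ} (hαN : S.α.d ^ (N + 1) = 0) {ε : ℝ} {l : Form dB}
    (hl : S.b1 = ε • S.b0 + l.d) :
    La S (S.b1 * S.e ^ N) = ((2 * D)⁻¹) ^ N * (ε * S.k * S.I (S.α * S.α.d ^ N)) := by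
  rw [← S.left_side hαN hl]
  change S.I (S.P (S.αB * (S.b1 * S.e ^ N))) = _
  have h1 : S.b1 * S.e ^ N = ((2 * D)⁻¹) ^ N • (S.αB.d ^ N * S.b1) := by
    have h0 : S.e = (2 * D)⁻¹ • S.αB.d := S.e_eq
    rw [(even_comm S.b1_sg _).eq, h0, smul_pow, smul_mul_assoc]
  rw [h1, mul_smul_comm, map_smul, map_smul, smul_eq_mul]

variable (hκe : κU.sg = κU) (hκb : Basic S.φU S.hφU.map κU) (hκd : κU.d = S.vU)
include hκe hκb hκd

/-- the first end of the contraction -/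
theorem G1_eqv : Eqv S.hφ.map S.G1
    (Form.pull S.pi S.hpi (S.uU κU) + S.e * S.kB κU) := by
  set X0 := Form.pull S.pi S.hpi S.xU with hX0
  set KU := Form.pull S.pi S.hpi κU with hKU
  have hpu : Form.pull S.pi S.hpi (S.uU κU) = X0 + S.e * KU := by
    rw [Sys.uU, pull_add, pull_mul, S.pi_eU]
  have hkg : S.kg = KU + S.kB κU := by rw [Sys.kB]; abel
  have hg := gauge S.cx_sg (e := pr S.e) (by rw [← pr_sg, S.e_sg]) S.ck_sg S.cy_sg S.cx_d
      (by rw [← pr_d, S.e_d, pr_zero]) (τ := 0) (by rw [S.ck_d, sub_zero]) S.cy_d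
  have h1 := homotopy' (S.cx + pr S.e * S.ck)
  rw [hg.1, mul_zero, neg_zero, K_zero, zero_add, at_add, at_add, at_mul, at_mul, at_pr,
    at_pr, S.ck_one, S.cx_one, S.cx_zero, S.ck_zero, mul_zero, add_zero, ← hX0] at h1
  refine ⟨Form.K (S.cx + pr S.e * S.ck),
    basic_K (Basic.add S.cx_basic (Basic.mul (Basic.pr S.e_basic) S.ck_basic)), ?_⟩
  rw [hpu, ← h1, hkg, mul_add]
  abel

/-- **the relations of the basic classes on `B`** -/
theorem rels (hκ : Eqv S.hφ.map (S.kB κU) ((1 / 2 : ℝ) • S.b1)) {a μ : ℝ} {ρ : Form dB}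
    (hρ : Basic S.φ S.hφ.map ρ)
    (hrel : S.b1 ^ 2 = a • S.e ^ 6 + μ • (S.e ^ 2 * (S.G1 + S.G2)) + ρ.d) :
    ∃ e' b' u' : Bas S.φ S.hφ.map, (e' : Form dB) = S.e ∧ (b' : Form dB) = S.b1 ∧
      (u' : Form dB) = Form.pull S.pi S.hpi (S.uU κU) ∧
      (let Q := Ideal.Quotient.mk (Exa S.φ S.hφ.map)
       (12 : ℝ) • (Q b' * Q u' ^ 2) + a • (Q b' * Q e' ^ 8) +
          (2 * μ) • (Q b' * (Q e' ^ 4 * Q u')) = 0 ∧
        a • (Q b' * (Q e' ^ 8 * Q u')) + (2 * μ) • (Q b' * (Q e' ^ 4 * Q u' ^ 2)) = 0) := by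
  obtain ⟨hu1, hu2, hu3⟩ := S.uU_good hκe hκb hκd
  obtain ⟨hk1, hk2, hk3⟩ := S.kB_good hκe hκb hκd
  let x1 : Bas S.φ S.hφ.map := ⟨S.G1, S.G1_good.2.1, S.G1_good.1, S.G1_basic⟩
  let x2 : Bas S.φ S.hφ.map := ⟨S.G2, S.G2_good.2.1, S.G2_good.1, S.G2_basic⟩
  let b' : Bas S.φ S.hφ.map := ⟨S.b1, S.b1_sg, S.b1_d, S.b1_basic⟩
  let e' : Bas S.φ S.hφ.map := ⟨S.e, S.e_sg, S.e_d, S.e_basic⟩
  let k' : Bas S.φ S.hφ.map := ⟨S.kB κU, hk1, hk2, hk3⟩
  let u' : Bas S.φ S.hφ.map := ⟨Form.pull S.pi S.hpi (S.uU κU), by rw [← Form.pull_sg, hu1],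
    by rw [← Form.pull_d, hu2, pull_zero], Basic.pull S.hφ.map S.hφU.map S.hpi S.hpφ hu3⟩
  refine ⟨e', b', u', rfl, rfl, rfl, ?_⟩
  set Q := Ideal.Quotient.mkₐ ℝ (Exa S.φ S.hφ.map) with hQ
  have hsm : ∀ (r : ℝ) (w : Bas S.φ S.hφ.map), Q (r • w) = r • Q w := fun r w => rfl
  have r1 : Q x1 = Q u' + Q e' * Q k' := by
    obtain ⟨w, hw, hw'⟩ := G1_eqv S hκe hκb hκd
    have h2 : Q x1 = Q (u' + e' * k') := eq_quot S.φ S.hφ.map hw hw'
    rw [h2, map_add, map_mul]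
  have r2 : Q x1 - Q x2 = Q e' * Q b' := by
    obtain ⟨u, hu, hu'⟩ := S.gysin1
    rw [← map_sub, ← map_mul]
    exact eq_quot S.φ S.hφ.map hu hu'
  have r3 : 2 * Q k' = Q b' := by
    obtain ⟨u, hu, hu'⟩ := hκ
    have h1 : Q k' = Q ((1 / 2 : ℝ) • b') := eq_quot S.φ S.hφ.map hu hu'
    rw [h1, hsm]
    exact two_half _
  have r4 : Q b' ^ 2 = a • Q e' ^ 6 + μ • (Q e' ^ 2 * (Q x1 + Q x2)) := by
    have h5 : Q (b' ^ 2) = Q (a • e' ^ 6 + μ • (e' ^ 2 * (x1 + x2))) :=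
      eq_quot S.φ S.hφ.map hρ hrel
    rw [map_pow, map_add, hsm, hsm, map_mul, map_pow, map_pow, map_add] at h5
    exact h5
  have r5 : Q b' * (Q x2 ^ 2 + Q x2 * Q x1 + Q x1 ^ 2) = 0 := by
    obtain ⟨u, hu, hu'⟩ := S.b1_hh
    have h5 : Q (b' * (x2 ^ 2 + x2 * x1 + x1 ^ 2)) = Q 0 := by
      refine eq_quot S.φ S.hφ.map hu ?_
      refine Eq.trans hu' ?_
      exact (zero_add u.d).symm
    rw [map_zero, map_mul, map_add, map_add, map_pow, map_mul, map_pow] at h5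
    exact h5
  have r6 : Q x1 ^ 3 = 0 := by
    rw [← map_pow]
    have : x1 ^ 3 = 0 := Subtype.ext S.G1_good.2.2
    rw [this, map_zero]
  have r7 : Q x2 ^ 3 = 0 := by
    rw [← map_pow]
    have : x2 ^ 3 = 0 := Subtype.ext S.G2_good.2.2
    rw [this, map_zero]
  exact rel_alg r1 r2 r3 r4 r5 r6 r7

/-- **(P1 i)** `e ^ 11` and `e ^ 7 u` are independent modulo differentials of basic forms -/
theorem indep (hκ : Eqv S.hφ.map (S.kB κU) ((1 / 2 : ℝ) • S.b1)) {a μ : ℝ} {ρ : Form dB}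
    (hρ : Basic S.φ S.hφ.map ρ)
    (hrel : S.b1 ^ 2 = a • S.e ^ 6 + μ • (S.e ^ 2 * (S.G1 + S.G2)) + ρ.d) (ha : a ≠ 0)
    (hαN : S.α.d ^ (15 + 1) = 0) (hV : S.I (S.α * S.α.d ^ 15) ≠ 0) {ε : ℝ} (hε : ε ≠ 0)
    {l : Form dB} (hl : S.b1 = ε • S.b0 + l.d) {c₁ c₂ : ℝ}
    (h : Eqv S.hφU.map (c₁ • S.eU ^ 11 + c₂ • (S.eU ^ 7 * S.uU κU)) 0) : c₁ = 0 ∧ c₂ = 0 := by
  obtain ⟨e', b', u', he, hb, hu, hr1, hr2⟩ := rels S hκe hκb hκd hκ hρ hrel
  set Q := Ideal.Quotient.mkₐ ℝ (Exa S.φ S.hφ.map) with hQ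
  have hsm : ∀ (r : ℝ) (w : Bas S.φ S.hφ.map), Q (r • w) = r • Q w := fun r w => rfl
  change (12 : ℝ) • (Q b' * Q u' ^ 2) + a • (Q b' * Q e' ^ 8) +
          (2 * μ) • (Q b' * (Q e' ^ 4 * Q u')) = 0 at hr1
  change a • (Q b' * (Q e' ^ 8 * Q u')) + (2 * μ) • (Q b' * (Q e' ^ 4 * Q u' ^ 2)) = 0 at hr2
  -- the functional
  have hL : ∀ {v w : Bas S.φ S.hφ.map}, Q v = Q w → La S v = La S w := fun h => La_quot S h
  set A := La S (b' * e' ^ 15 : Bas S.φ S.hφ.map) with hA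
  set BB := La S (b' * (e' ^ 11 * u') : Bas S.φ S.hφ.map) with hBB
  set C := La S (b' * (e' ^ 7 * u' ^ 2) : Bas S.φ S.hφ.map) with hC
  have hA0 : A ≠ 0 := by
    have h1 : ((b' * e' ^ 15 : Bas S.φ S.hφ.map) : Form dB) = S.b1 * S.e ^ 15 := by
      rw [← he, ← hb]
      rfl
    rw [hA, h1, La_vol S hαN hl]
    refine mul_ne_zero (pow_ne_zero _ (inv_ne_zero S.T2)) (mul_ne_zero (mul_ne_zero hε S.hk) hV)
  have hc : ∀ (r : ℝ) (w : Bas S.φ S.hφ.map), La S ((r • w : Bas S.φ S.hφ.map) : Form dB) =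
      r * La S w := fun r w => by
    have : ((r • w : Bas S.φ S.hφ.map) : Form dB) = r • (w : Form dB) := rfl
    rw [this, map_smul, smul_eq_mul]
  have ha' : ∀ (v w : Bas S.φ S.hφ.map), La S ((v + w : Bas S.φ S.hφ.map) : Form dB) =
      La S v + La S w := fun v w => by
    have : ((v + w : Bas S.φ S.hφ.map) : Form dB) = (v : Form dB) + (w : Form dB) := rfl
    rw [this, map_add]
  have h0 : La S ((0 : Bas S.φ S.hφ.map) : Form dB) = 0 := map_zero (La S)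
  have n1 : 12 * C + a * A + 2 * μ * BB = 0 := by
    have h1 : Q ((12 : ℝ) • (b' * (e' ^ 7 * u' ^ 2)) + a • (b' * e' ^ 15) +
        (2 * μ) • (b' * (e' ^ 11 * u'))) = Q 0 := by
      have h2 := congrArg (fun z => Q e' ^ 7 * z) hr1
      simp only [mul_add, mul_smul_comm, mul_zero] at h2
      rw [map_zero, ← h2]
      simp only [map_add, hsm, map_mul, map_pow]
      congr 1
      · congr 1
        · congr 1
          ring
        · congr 1
          ring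
      · congr 1
        ring
    have h3 := hL h1
    rwa [h0, ha', ha', hc, hc, hc] at h3
  have n2 : a * BB + 2 * μ * C = 0 := by
    have h1 : Q (a • (b' * (e' ^ 11 * u')) + (2 * μ) • (b' * (e' ^ 7 * u' ^ 2))) = Q 0 := by
      have h2 := congrArg (fun z => Q e' ^ 3 * z) hr2
      simp only [mul_add, mul_smul_comm, mul_zero] at h2
      rw [map_zero, ← h2]
      simp only [map_add, hsm, map_mul, map_pow]
      congr 1
      · congr 1
        ring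
      · congr 1
        ring
    have h3 := hL h1
    rwa [h0, ha', hc, hc] at h3
  -- the given relation
  have hg : Q (c₁ • e' ^ 11 + c₂ • (e' ^ 7 * u')) = 0 := by
    obtain ⟨κ, hκ1, hκ2⟩ := h
    rw [← map_zero Q]
    refine eq_quot S.φ S.hφ.map (u := Form.pull S.pi S.hpi κ)
      (Basic.pull S.hφ.map S.hφU.map S.hpi S.hpφ hκ1) ?_
    have h1 : ((c₁ • e' ^ 11 + c₂ • (e' ^ 7 * u') : Bas S.φ S.hφ.map) : Form dB) =
        c₁ • (e' : Form dB) ^ 11 + c₂ • ((e' : Form dB) ^ 7 * (u' : Form dB)) := rfl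
    have h2 : ((0 : Bas S.φ S.hφ.map) : Form dB) = 0 := rfl
    rw [h1, h2, he, hu, zero_add, ← Form.pull_d, ← S.pi_eU, ← pull_pow, ← pull_pow, ← pull_mul,
      ← pull_smul, ← pull_smul, ← pull_add]
    congr 1
    rw [hκ2, zero_add]
  have n3 : c₁ * A + c₂ * BB = 0 := by
    have h1 : Q (c₁ • (b' * e' ^ 15) + c₂ • (b' * (e' ^ 11 * u'))) = Q 0 := by
      have h2 := congrArg (fun z => Q b' * Q e' ^ 4 * z) hg
      simp only [mul_zero, map_add, hsm, map_mul, map_pow, mul_add, mul_smul_comm] at h2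
      rw [map_zero, ← h2]
      simp only [map_add, hsm, map_mul, map_pow]
      congr 1
      · congr 1
        ring
      · congr 1
        ring
    have h3 := hL h1
    rwa [h0, ha', hc, hc] at h3
  have n4 : c₁ * BB + c₂ * C = 0 := by
    have h1 : Q (c₁ • (b' * (e' ^ 11 * u')) + c₂ • (b' * (e' ^ 7 * u' ^ 2))) = Q 0 := by
      have h2 := congrArg (fun z => Q b' * Q u' * z) hg
      simp only [mul_zero, map_add, hsm, map_mul, map_pow, mul_add, mul_smul_comm] at h2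
      rw [map_zero, ← h2]
      simp only [map_add, hsm, map_mul, map_pow]
      congr 1
      · congr 1
        ring
      · congr 1
        ring
    have h3 := hL h1
    rwa [h0, ha', hc, hc] at h3
  exact num ha hA0 n1 n2 n3 n4

end Sys

end Vale.Agent.P231.P1
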