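import Vale.Agent.P231.P1.PPI
import Vale.Agent.P231.L3.Inst
import Vale.Agent.P231.H584.Int

/-!
# P231, stage 3, S3-P: the further properties of the fibre integral of the system of data
-/

set_option maxSynthPendingDepth 3
set_option linter.unusedSectionVars false
set_option linter.unusedVariables false

open Bundle Manifold Set Filter Module MeasureTheory
open scoped ContDiff Manifold Topology ENNReal Real

namespace Vale.Agent.P231.P1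

noncomputable section

open Vale.Agent.P234 Vale.Agent.P231 Vale.Agent.P231.Fm Vale.Agent.P231.W Vale.Agent.P231.WR
  Vale.Agent.P231.H766 Vale.Agent.P231.WG Vale.Agent.P231.S2II Vale.Agent.P231.WQ

variable {E : Type*} [NormedAddCommGroup E] [NormedSpace ℝ E]
  {M : Type*} [MetricSpace M] [ChartedSpace E M]
  [RiemannianBundle (fun x : M => TangentSpace 𝓘(ℝ, E) x)]
  {e : ∀ x : M, TangentSpace 𝓘(ℝ, E) x → M}
  [FiniteDimensional ℝ E] [IsManifold 𝓘(ℝ, E) ∞ M]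
  [IsContMDiffRiemannianBundle 𝓘(ℝ, E) ∞ E (fun x : M => TangentSpace 𝓘(ℝ, E) x)]
  [CompactSpace M] [ConnectedSpace M] [IsRiemannianManifold 𝓘(ℝ, E) M]
  (F : Facts e) {D : ℝ} (hD : 0 < D) (hB : InjGE e D) (hdiam : ∀ p q : M, dist p q ≤ D)
  [MeasurableSpace M] [BorelSpace M]
  (hl : ∀ x y : M, dist x y = D → finrank ℝ (H775.Pl e D x y) = 2 * 3 + 2)
  (hN : finrank ℝ E = 15 + 1) (hE : 15 + 1 = (2 * 3 + 2) * (1 + 1))
  {p : M}
  {Pi : TangentSpace 𝓘(ℝ, E) p → TangentSpace 𝓘(ℝ, E) p →L[ℝ] TangentSpace 𝓘(ℝ, E) p}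
  {o : TangentSpace 𝓘(ℝ, E) p → Fm.Lam (TangentSpace 𝓘(ℝ, E) p)}
  {ρ : TangentSpace 𝓘(ℝ, E) p → ℝ} {r₀ : ℝ}
  (hJ : FE.LineP e D p 3 Pi o) (hρ : WE.Rho e D p ρ r₀) {a : ℝ} (ha : a ≠ 0)
  {Lm : Pr e D × ℝ → Pr e D} {Y : Pr e D → E} {ε₀ : ℝ} (hL : PushL F hD hB hdiam Lm Y ε₀)
  (g : Pr e D × ℝ → M) (hg : ((dPr e D).prod (Dif.lin ℝ)).Map (dM E M) g)
  (hg0 : ∀ b, g (b, 0) = foot b.v) (hg1 : ∀ b t, g (Lm (b, t), 1) = g (b, 1))
  {R : ℝ} (X : Fr e p R) (v0 : UT E M) {r : Eu E → ℝ} {K : Set (Eu E)} (hr : Q.Cut r K)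
  (hDR : D < R) (b : OrthonormalBasis (Fin (15 + 1)) ℝ (Eu E))
  {T : UT E M → ℝ → E →ₗ[ℝ] E} (hT : S2I3.LT F hD hB hdiam T)
  (hLw : ∀ b t, (vec' (Lm (b, t)).w : E) =
    (nm (gm e (b.v, t)) (T b.v t (vec' b.w)))⁻¹ • T b.v t (vec' b.w))

include hT hLw in
/-- **the fibre integral maps basic forms to basic forms** -/
theorem inst_PP : (L3.inst F hD hB hdiam hl hN hE hJ hρ ha hL g hg hg0 hg1 X v0 hr hDR b).PP where
  bas w hw := by
    have : NeZero (2 * 3 + 1) := ⟨by omega⟩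
    exact SL_basic F hD hB hdiam (l := 2 * 3 + 1) hl hT hL.v hLw
      (S2II.orn_b0P F hD hB hdiam (L3.two_le hN hE) hl hJ hρ ha) ⟨3, rfl⟩ hL.flow.map
      hL.flow.zero hw
  deg k w hw := by
    have : NeZero (2 * 3 + 1) := ⟨by omega⟩
    exact (bun_SL F hD hB hdiam (l := 2 * 3 + 1) hl
      (S2II.orn_b0P F hD hB hdiam (L3.two_le hN hE) hl hJ hρ ha) ⟨3, rfl⟩).isDeg_SI
        (bas (2 * 3 + 1)) hw (by omega)
  σ w := by
    have : NeZero (2 * 3 + 1) := ⟨by omega⟩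
    exact SL_Th F hD hB hdiam (l := 2 * 3 + 1) hl
      (S2II.orn_b0P F hD hB hdiam (L3.two_le hN hE) hl hJ hρ ha) ⟨3, rfl⟩
      (S2II.b0P_Th F hD hB hdiam _) w

end

end Vale.Agent.P231.P1
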