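import Vale.Agent.P231.P1.Gls
import Vale.Agent.P231.S2II.Fun
import Vale.Agent.P231.S2I3.Flow
import Vale.Agent.P231.H766.PushL

/-!
# P231, stage 3, S3-P: the fibre integral and the lifted flow
-/

set_option maxSynthPendingDepth 3
set_option linter.unusedSectionVars false
set_option linter.unusedVariables false

open Bundle Manifold Set Filter Module MeasureTheory
open scoped ContDiff Manifold Topology

namespace Vale.Agent.P231.P1

noncomputable section

open Vale.Agent.P234 Vale.Agent.P231 Vale.Agent.P231.Fm Vale.Agent.P231.W Vale.Agent.P231.WR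
  Vale.Agent.P231.S2II
open Vale.Agent.P231.Fm (Dif Form Sm)

variable {E : Type*} [NormedAddCommGroup E] [NormedSpace ℝ E]
  {M : Type*} [MetricSpace M] [ChartedSpace E M]
  [RiemannianBundle (fun x : M => TangentSpace 𝓘(ℝ, E) x)]
  {e : ∀ x : M, TangentSpace 𝓘(ℝ, E) x → M}
  [FiniteDimensional ℝ E] [IsManifold 𝓘(ℝ, E) ∞ M]
  [IsContMDiffRiemannianBundle 𝓘(ℝ, E) ∞ E (fun x : M => TangentSpace 𝓘(ℝ, E) x)]
  [CompactSpace M] [ConnectedSpace M] [IsRiemannianManifold 𝓘(ℝ, E) M]
  {D : ℝ} {l : ℕ}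

/-- the matrix of the transport in two frames -/
def gT (T : UT E M → ℝ → E →ₗ[ℝ] E) (f f' : S2II.Fr e D l) (t : ℝ) : Eul l →L[ℝ] Eul l :=
  mt (fun i j => ip (foot f'.v) (vec' (f'.W i)) (T f.v t (vec' (f.W j))))

theorem co_T (T : UT E M → ℝ → E →ₗ[ℝ] E) (f f' : S2II.Fr e D l) (t : ℝ) (y : Eul l) :
    co f' (T f.v t (cb f y)) = gT T f f' t y := by
  ext i
  rw [gT, mt_apply, co_apply, cb, map_sum, ip_sum_right]
  refine Finset.sum_congr rfl fun j _ => ?_
  rw [map_smul, ip_smul_right', mul_comm]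

variable (F : Facts e) (hD : 0 < D) (hB : InjGE e D) (hdiam : ∀ p q : M, dist p q ≤ D)
  (hP : ∀ x y : M, dist x y = D → finrank ℝ (H775.Pl e D x y) = l + 1)
  {T : UT E M → ℝ → E →ₗ[ℝ] E} (hT : S2I3.LT F hD hB hdiam T)

include hP hT in
theorem cb_gT {f f' : S2II.Fr e D l} {t : ℝ} (hv : f'.v = phi F (f.v, t)) (y : Eul l) :
    cb f' (gT T f f' t y) = T f.v t (cb f y) := by
  have h1 : S2I3.InL e D (phi F (f.v, t)) (T f.v t (cb f y)) := hT.mem f.v t _ (cb_mem f y)
  rw [← co_T]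
  refine cb_co F hD hB hdiam hP f' ?_
  rw [hv]
  exact h1

include hP hT in
theorem gT_inj {f f' : S2II.Fr e D l} {t : ℝ} (hv : f'.v = phi F (f.v, t)) {y : Eul l}
    (h : gT T f f' t y = 0) : y = 0 := by
  have h1 := cb_gT F hD hB hdiam hP hT hv y
  have h2 : cb f' (0 : Eul l) = 0 := by
    rw [cb]
    refine Finset.sum_eq_zero fun i _ => ?_
    rw [PiLp.zero_apply, zero_smul]
  rw [h, h2] at h1
  have h3 : cb f y = 0 := hT.inj (cb_mem f y) h1.symm
  rw [← co_cb f y, h3]
  ext i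
  rw [co_apply]
  exact inner_zero_right _

variable [NeZero l] {Lm : Pr e D × ℝ → Pr e D}
  (hLv : ∀ b t, (Lm (b, t)).v = phi F (b.v, t))
  (hLw : ∀ b t, (vec' (Lm (b, t)).w : E) =
    (nm (gm e (b.v, t)) (T b.v t (vec' b.w)))⁻¹ • T b.v t (vec' b.w))

theorem nm_cb' (f : S2II.Fr e D l) (y : Eul l) : nm (foot f.v) (cb f y) = ‖y‖ := by
  have h1 : ip (foot f.v) (cb f y) (cb f y) = nm (foot f.v) (cb f y) ^ 2 :=
    real_inner_self_eq_norm_sq (F := TangentSpace 𝓘(ℝ, E) (foot f.v)) _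
  have h0 : 0 ≤ nm (foot f.v) (cb f y) :=
    norm_nonneg (E := TangentSpace 𝓘(ℝ, E) (foot f.v)) _
  rw [ip_cb_cb, real_inner_self_eq_norm_sq] at h1
  exact ((sq_eq_sq₀ (norm_nonneg y) h0).1 h1).symm

include hP hT hLv hLw in
/-- the lifted flow in frames -/
theorem cone_Lm {f f' : S2II.Fr e D l} {t : ℝ} (hv : f'.v = phi F (f.v, t)) {y : Eul l}
    (hy : ‖y‖ = 1) :
    cone F hD hB hdiam (f', ‖gT T f f' t y‖⁻¹ • gT T f f' t y) =
      Lm (cone F hD hB hdiam (f, y), t) := by
  set b := cone F hD hB hdiam (f, y) with hb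
  have hbv : b.v = f.v := cone_v F hD hB hdiam _
  have hbw : vec' b.w = cb f y := by
    rw [hb, cone_w F hD hB hdiam f hy]
    rfl
  have h0 : gT T f f' t y ≠ 0 := by
    intro h
    have h1 := gT_inj F hD hB hdiam hP hT hv h
    rw [h1, norm_zero] at hy
    exact zero_ne_one hy
  have hn := norm_nrm h0
  refine Pr.ext' ?_ ?_
  · rw [cone_v, hLv, hbv]
    exact hv
  · rw [cone_w F hD hB hdiam _ hn]
    refine (mk_congr ?_ ?_).trans (mk_eta _)
    · rw [(Lm (b, t)).isL.foot_eq, hLv, hbv]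
      exact congrArg foot hv
    · rw [hLw, cb_smul, cb_gT F hD hB hdiam hP hT hv, hbv, hbw]
      congr 2
      have h1 := nm_cb' f' (gT T f f' t y)
      rw [cb_gT F hD hB hdiam hP hT hv, hv] at h1
      exact h1.symm

include hP hT hLv hLw in
/-- **the fibre integral in a transported frame** -/
theorem frb_Lm {w w' : Form (dPr e D)} {P : ℝ → Prop}
    (hLm : ((dPr e D).prod (Dif.lin ℝ)).Map (dPr e D) Lm)
    (hww : ∀ {E' : Type} [NormedAddCommGroup E'] [NormedSpace ℝ E'] [FiniteDimensional ℝ E']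
      {V : E' → Pr e D × ℝ} {z : E'}, ((dPr e D).prod (Dif.lin ℝ)).At V z →
      (∀ y, P (V y).2) → w.val (Lm ∘ V) z = w'.val (Prod.fst ∘ V) z)
    {E' : Type} [NormedAddCommGroup E'] [NormedSpace ℝ E'] [FiniteDimensional ℝ E']
    {f f' : E' → S2II.Fr e D l} {t : E' → ℝ} {x : E'} (hf : (dFr e D l).At f x)
    (hf' : (dFr e D l).At f' x) (ht : Sm t x) (htP : ∀ s, P (t s))
    (hv : ∀ᶠ s in 𝓝 x, (f' s).v = phi F ((f s).v, t s)) :
    (frb F hD hB hdiam w').val f x =
      (LinearMap.det (gT T (f x) (f' x) (t x) : Eul l →ₗ[ℝ] Eul l) *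
        |LinearMap.det (gT T (f x) (f' x) (t x) : Eul l →ₗ[ℝ] Eul l)|⁻¹) •
        (frb F hD hB hdiam w).val f' x := by
  -- smoothness of the matrix
  have hg : Sm (fun s => gT T (f s) (f' s) (t s)) x := by
    refine sm_mt fun i j => ?_
    have h1 : (dTM E M).At (fun s => tb (foot (f s).v) (vec' ((f s).W j))) x := by
      have h5 := at_iff.1 (hf.2 j)
      rw [smV_iff_tb]
      filter_upwards [h5] with s g1
      refine ContMDiffAt.congr_of_eventuallyEq g1 ?_
      exact Eventually.of_forall fun s' => tb_congr (((f s').isLF.isL j).foot_eq).symm rfl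
    have h2 := hT.map (u := fun s => (f s).v) (τ := t) (a := fun s => vec' ((f s).W j)) hf.1 ht h1
      (Eventually.of_forall fun s => ((f s).isLF.isL j).mem_Lf)
    have h3 := sm_ip_raw (u := fun s => phi F ((f s).v, t s)) (w := fun s => (f' s).W i)
      (a := fun s => T (f s).v (t s) (vec' ((f s).W j))) (x := x) (hf'.2 i) h2 (by
        filter_upwards [hv] with s hs
        rw [← hs]
        exact ((f' s).isLF.isL i).foot_eq)
    have hv' := eventually_eventually_nhds.2 hv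
    filter_upwards [h3, hv'] with s g1 g2
    refine g1.congr_of_eventuallyEq ?_
    filter_upwards [g2] with s' g3
    change ip (foot (f' s').v) _ _ = _
    rw [g3]
  obtain ⟨O, hO, hxO, N, hG⟩ := exists_gl hg
    (fun y hy => gT_inj F hD hB hdiam hP hT hv.self_of_nhds hy)
  obtain ⟨O2, hO2, hO3, hO4⟩ := eventually_nhds_iff.1
    ((((dFr e D l).open' hf).and ((dFr e D l).open' hf')).and (ht.and hv))
  set O' : Set E' := O ∩ O2 with hO'
  have hG' := hG O' inter_subset_left
  set DD : Dif E' := (Dif.lin E').on O' with hDD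
  have hin : ∀ {E'' : Type} [NormedAddCommGroup E''] [NormedSpace ℝ E''] [FiniteDimensional ℝ E'']
      {u : E'' → E'} {z : E''}, DD.At u z → u z ∈ O2 := fun hu => hu.2.self_of_nhds.2
  have mf : DD.Map (dFr e D l) f := fun {E''} _ _ _ {u z} hu =>
    (dFr e D l).comp (u := f) (g := u) (x := z) (hO2 _ (hin hu)).1.1 hu.1
  have mf' : DD.Map (dFr e D l) f' := fun {E''} _ _ _ {u z} hu =>
    (dFr e D l).comp (u := f') (g := u) (x := z) (hO2 _ (hin hu)).1.2 hu.1
  have mt' : DD.Map (Dif.lin ℝ) t := fun {E''} _ _ _ {u z} hu => by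
    have h1 : Sm t (u z) := by
      filter_upwards [hO3.mem_nhds (hin hu)] with s hs
      exact (hO2 s hs).2.1
    exact Sm.comp (f := t) (g := u) h1 hu.1
  have s1 := Co.si_nat (bas l) mf
    (Form.pull (cone F hD hB hdiam) (map_coneS F hD hB hdiam) w')
  have s2 := Co.si_nat (bas l) mf'
    (Form.pull (cone F hD hB hdiam) (map_coneS F hD hB hdiam) w)
  have key : Form.pull (nl fun s => gT T (f s) (f' s) (t s)) hG'.map_nl
      (Form.pull (fun p : E' × Eul l => (f' p.1, p.2)) (Co.map_SB mf')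
        (Form.pull (cone F hD hB hdiam) (map_coneS F hD hB hdiam) w)) =
      Form.pull (fun p : E' × Eul l => (f p.1, p.2)) (Co.map_SB mf)
        (Form.pull (cone F hD hB hdiam) (map_coneS F hD hB hdiam) w') := by
    refine Form.ext_val fun E'' _ _ _ U z hU => ?_
    have a1 := hG'.map_nl hU
    have a2 := Co.map_SB mf' a1
    have a3 := Co.map_SB mf hU
    rw [Form.pull_val _ _ hU, Form.pull_val _ _ a1, Form.pull_val _ _ a2, Form.pull_val _ _ hU,
      Form.pull_val _ _ a3]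
    have hV : ((dPr e D).prod (Dif.lin ℝ)).At
        (fun y => (cone F hD hB hdiam (f (U y).1, (U y).2), t (U y).1)) z :=
      ⟨map_coneS F hD hB hdiam a3, mt' hU.1.1⟩
    have h1 := hww hV (fun y => htP _)
    refine Eq.trans ?_ h1
    refine w.congr (map_coneS F hD hB hdiam a2) ?_
    filter_upwards [hU.2, hU.1.1.2] with y hy1 hy2
    exact cone_Lm F hD hB hdiam hP hT hLv hLw (hO2 _ hy2.2).2.2 hy1
  have s3 := si_lin (bas l) hG' (Form.pull (fun p : E' × Eul l => (f' p.1, p.2)) (Co.map_SB mf')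
        (Form.pull (cone F hD hB hdiam) (map_coneS F hD hB hdiam) w))
  rw [key, s1, s2] at s3
  have hid : DD.At (fun s : E' => s) x := ⟨Sm.of_contDiff contDiff_id _,
    (hO.inter hO3).mem_nhds ⟨hxO, hO4⟩⟩
  have s4 := congrArg (fun a : Form DD => a.val (fun s : E' => s) x) s3
  change (Form.pull _ _ _).val _ x = (_ • Form.pull _ _ _).val _ x at s4
  rw [Form.pull_val _ _ hid, Form.smul_val, Form.pull_val _ _ hid] at s4
  exact s4

/-! ### the sign -/

section Sign

variable {b : Form (dPr e D)} (hb : Orn F hD hB hdiam (l := l) b) (hl : Odd l)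
  (hLm : ((dPr e D).prod (Dif.lin ℝ)).Map (dPr e D) Lm) (hL0 : ∀ b, Lm (b, 0) = b)

include hL0 in
/-- the fibre integral of the orienting form is invariant -/
theorem SL_at (c : ℝ) :
    SL F hD hB hdiam hP hb hl (Form.pull (fun q => Lm (q, c)) (H584.map_at hLm c) b) =
      SL F hD hB hdiam hP hb hl b := by
  have h1 := H584.KT_homotopy c (Form.pull Lm hLm b)
  rw [H584.at_pull_of hLm, H584.at_pull_of hLm, ← Form.pull_d, hb.closed] at h1
  have h0 : Form.pull (fun q => Lm (q, 0)) (H584.map_at hLm 0) b = b := by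
    refine Form.ext_val fun E' _ _ _ u x hu => ?_
    rw [Form.pull_val _ _ hu]
    congr 1
    funext y
    exact hL0 (u y)
  rw [h0, Co.pull_zero, H584.KT_zero, zero_add, sub_eq_iff_eq_add] at h1
  have h2 : ∀ w : Form (dPr e D), Form.IsDeg (l - 1) w →
      Form.IsDeg 0 (SL F hD hB hdiam hP hb hl w) := fun w hw =>
    (bun_SL F hD hB hdiam hP hb hl).isDeg_SI (bas l) hw (by have := NeZero.pos l; omega)
  have h3 : Form.part 0 (SL F hD hB hdiam hP hb hl
      (Form.pull (fun q => Lm (q, c)) (H584.map_at hLm c) b)) = Form.part 0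
        (SL F hD hB hdiam hP hb hl ((KT c (Form.pull Lm hLm b)).d + b)) :=
    congrArg (fun w => Form.part 0 (SL F hD hB hdiam hP hb hl w)) h1
  rw [map_add, SL_d, Form.part_add, Form.part_zero_d, zero_add, (h2 b hb.deg).part_eq,
    (h2 _ (hb.deg.pull _ _)).part_eq] at h3
  exact h3

include hP hT hLv hLw hb hl hLm hL0 in
theorem sgn_one {f f' : S2II.Fr e D l} {c : ℝ} (hv : f'.v = phi F (f.v, c))
    (hf : 0 < kf F hD hB hdiam b f) (hf' : 0 < kf F hD hB hdiam b f') :
    LinearMap.det (gT T f f' c : Eul l →ₗ[ℝ] Eul l) *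
      |LinearMap.det (gT T f f' c : Eul l →ₗ[ℝ] Eul l)|⁻¹ = 1 := by
  have hfa : (dFr e D l).At (fun _ : ℝ => f) 0 :=
    ⟨WF.const_at f.v 0, fun i => WF.const_at (f.W i) 0⟩
  have hfa' : (dFr e D l).At (fun _ : ℝ => f') 0 :=
    ⟨WF.const_at f'.v 0, fun i => WF.const_at (f'.W i) 0⟩
  have hfo : (dFo F hD hB hdiam b).At (fun _ : ℝ => f) 0 := ⟨hfa, Eventually.of_forall fun _ => hf⟩
  have h1 := frb_Lm F hD hB hdiam hP hT hLv hLw (w := b)
    (w' := Form.pull (fun q => Lm (q, c)) (H584.map_at hLm c) b) (P := fun r => r = c) hLm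
    (fun {E'} _ _ _ {V z} hV hVc => by
      rw [Form.pull_val _ _ (Dif.map_fst hV)]
      congr 1
      funext y
      change Lm ((V y).1, (V y).2) = Lm ((V y).1, c)
      rw [hVc]) hfa hfa' (t := fun _ => c) (Sm.of_contDiff contDiff_const _) (fun _ => rfl)
    (Eventually.of_forall fun _ => hv)
  have h2 := SL_val F hD hB hdiam hP hb hl
    (Form.pull (fun q => Lm (q, c)) (H584.map_at hLm c) b) hfo
  rw [SL_at F hD hB hdiam hP hb hl hLm hL0 c, SL_val F hD hB hdiam hP hb hl b hfo, h1] at h2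
  have h3 := congrArg aug h2
  rw [map_smul, ← WF.ptv_eq _ hfa, ← WF.ptv_eq _ hfa', smul_eq_mul] at h3
  have h4 : kf F hD hB hdiam b f = (LinearMap.det (gT T f f' c : Eul l →ₗ[ℝ] Eul l) *
      |LinearMap.det (gT T f f' c : Eul l →ₗ[ℝ] Eul l)|⁻¹) * kf F hD hB hdiam b f' := h3
  rcases sgn_sq (det_ne fun y hy => gT_inj F hD hB hdiam hP hT hv hy) with h5 | h5
  · exact h5
  · rw [h5] at h4
    linarith

include hP hT hLv hLw hb hl hLm hL0 in
/-- **the fibre integral of a basic form is basic** -/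
theorem SL_basic {w : Form (dPr e D)} (hw : Basic Lm hLm w) :
    Basic (phi F) (map_phi F) (SL F hD hB hdiam hP hb hl w) := by
  have hq := (bun_SL F hD hB hdiam hP hb hl).hq
  refine Form.ext_val fun E' _ _ _ U x hU => ?_
  have hu : (dUT E M).At (fun s => (U s).1) x := hU.1
  have ht : Sm (fun s => (U s).2) x := hU.2
  have hu' : (dUT E M).At (phi F ∘ U) x := map_phi F hU
  obtain ⟨f, hf, hfu⟩ := hq.lift hu
  obtain ⟨f', hf', hfu'⟩ := hq.lift hu'
  have hfv : (dUT E M).At (Fr.v ∘ f) x := hq.map hf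
  have hfv' : (dUT E M).At (Fr.v ∘ f') x := hq.map hf'
  have hv : ∀ᶠ s in 𝓝 x, (f' s).v = phi F ((f s).v, (U s).2) := by
    filter_upwards [hfu, hfu'] with s h1 h2
    have h1' : (f s).v = (U s).1 := h1
    have h2' : (f' s).v = phi F (U s) := h2
    rw [h1', h2']
  have h1 := frb_Lm F hD hB hdiam hP hT hLv hLw (w := w) (w' := w) (P := fun _ => True) hLm
    (fun {E'} _ _ _ {V z} hV _ => by
      have h2 := congrArg (fun a : Form ((dPr e D).prod (Dif.lin ℝ)) => a.val V z) hw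
      change (Form.pull _ _ _).val V z =
        (Form.pull Prod.fst (Dif.map_fst (D := dPr e D) (D' := Dif.lin ℝ)) w).val V z at h2
      rw [Form.pull_val _ _ hV, Form.pull_val _ _ hV] at h2
      exact h2) hf.1 hf'.1 ht (fun _ => trivial) hv
  rw [sgn_one F hD hB hdiam hP hT hLv hLw hb hl hLm hL0 hv.self_of_nhds hf.2.self_of_nhds
    hf'.2.self_of_nhds, one_smul] at h1
  change (Form.pull _ _ _).val U x =
    (Form.pull Prod.fst (Dif.map_fst (D := dUT E M) (D' := Dif.lin ℝ)) _).val U x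
  rw [Form.pull_val _ _ hU, Form.pull_val _ _ hU]
  have h2 := Form.congr (SL F hD hB hdiam hP hb hl w) hfv' hfu'
  have h3 := Form.congr (SL F hD hB hdiam hP hb hl w) hfv hfu
  refine h2.symm.trans (Eq.trans ?_ h3)
  rw [SL_val F hD hB hdiam hP hb hl w hf', SL_val F hD hB hdiam hP hb hl w hf]
  exact h1.symm

end Sign

end

end Vale.Agent.P231.P1
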