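import Vale.Agent.P231.Co.Sph
import Vale.Agent.P231.WG.Fibre

/-!
# P231, stage 3, S3-P: the fibre integral over spheres and normalised linear maps
-/

set_option linter.unusedSectionVars false
set_option linter.unusedVariables false

open MeasureTheory Set Module Filter Topology
open scoped ContDiff

namespace Vale.Agent.P231.P1

noncomputable section

open Vale.Agent.P231.Fm Vale.Agent.P231.W Vale.Agent.P231.H584 Vale.Agent.P231.Co
open Vale.Agent.P231.Fm (Sm Dif Form Lam)

variable {X G : Type*} {D : Dif X} {DG : Dif G}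
variable {F : Type} [NormedAddCommGroup F] [InnerProductSpace ℝ F] [FiniteDimensional ℝ F]

/-- a smooth family of linear automorphisms of `F` whose determinants have the sign `s` -/
structure Gl (DG : Dif G) (g : G → F →L[ℝ] F) (N s : ℝ) : Prop where
  map : DG.Map (Dif.lin (F →L[ℝ] F)) g
  low : ∀ {E : Type} [NormedAddCommGroup E] [NormedSpace ℝ E] [FiniteDimensional ℝ E]
    {u : E → G} {x : E}, DG.At u x → ∀ ξ, ‖ξ‖ ≤ N * ‖g (u x) ξ‖
  ne : ∀ {E : Type} [NormedAddCommGroup E] [NormedSpace ℝ E] [FiniteDimensional ℝ E]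
    {u : E → G} {x : E}, DG.At u x → LinearMap.det ((g (u x) : F →L[ℝ] F) : F →ₗ[ℝ] F) ≠ 0
  sgn : ∀ {E : Type} [NormedAddCommGroup E] [NormedSpace ℝ E] [FiniteDimensional ℝ E]
    {u : E → G} {x : E}, DG.At u x → LinearMap.det ((g (u x) : F →L[ℝ] F) : F →ₗ[ℝ] F) *
      |LinearMap.det ((g (u x) : F →L[ℝ] F) : F →ₗ[ℝ] F)|⁻¹ = s

section

variable {g : G → F →L[ℝ] F} {N s : ℝ} (hg : Gl DG g N s)

include hg

theorem Gl.pos : 0 ≤ max N 0 := le_max_right _ _

theorem Gl.low' {E : Type} [NormedAddCommGroup E] [NormedSpace ℝ E] [FiniteDimensional ℝ E]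
    {u : E → G} {x : E} (h : DG.At u x) (ξ : F) : ‖ξ‖ ≤ max N 0 * ‖g (u x) ξ‖ :=
  (hg.low h ξ).trans (mul_le_mul_of_nonneg_right (le_max_left _ _) (norm_nonneg _))

theorem Gl.inj {E : Type} [NormedAddCommGroup E] [NormedSpace ℝ E] [FiniteDimensional ℝ E]
    {u : E → G} {x : E} (h : DG.At u x) {ξ : F} (h0 : ξ ≠ 0) : g (u x) ξ ≠ 0 := by
  intro h1
  have h2 := hg.low h ξ
  rw [h1, norm_zero, mul_zero] at h2
  exact h0 (norm_le_zero_iff.1 h2)

theorem Gl.map_lin : (D1 DG F).Map (D1 DG F) (fun p => (p.1, g p.1 p.2)) :=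
  fun hu => ⟨hu.1, sm_clm (hg.map hu.1) hu.2⟩

theorem Gl.map_PB : (PB DG F).Map (PB DG F) (fun p => (p.1, g p.1 p.2)) :=
  fun {E} _ _ _ {u x} hu => ⟨hg.map_lin hu.1, by
    filter_upwards [hu.2, DG.open' hu.1.1] with y h1 h2
    exact hg.inj (u := fun y => (u y).1) h2 h1⟩

end

/-- the normalised linear map -/
def nl (g : G → F →L[ℝ] F) (p : G × F) : G × F := (p.1, ‖g p.1 p.2‖⁻¹ • g p.1 p.2)

theorem map_SP : (SB DG F).Map (PB DG F) (fun p => p) := fun {E} _ _ _ {u x} hu =>
  ⟨hu.1, by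
    filter_upwards [hu.2] with y h1
    have h2 : ‖(u y).2‖ = 1 := h1
    intro h3
    have h4 : (u y).2 = 0 := h3
    rw [h4, norm_zero] at h2
    exact zero_ne_one h2⟩

section

variable {g : G → F →L[ℝ] F} {N s : ℝ} (hg : Gl DG g N s)

include hg

theorem Gl.map_nl : (SB DG F).Map (SB DG F) (nl g) := fun {E} _ _ _ {u x} hu =>
  map_nrm (hg.map_PB (map_SP hu))

theorem Gl.map_chi : (D1 DG F).Map (Dif.lin ℝ)
    (fun p : G × F => chi (p.1, g p.1 p.2)) := fun {E} _ _ _ {u x} hu =>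
  Co.map_chi (D := DG) (hg.map_lin hu)

end

theorem map_fsub {f f' : X → ℝ} (hf : D.Map (Dif.lin ℝ) f) (hf' : D.Map (Dif.lin ℝ) f') :
    D.Map (Dif.lin ℝ) (fun x => f x - f' x) := fun {E} _ _ _ {u x} hu => by
  have h1 : Sm (fun y => f (u y)) x := hf hu
  have h2 : Sm (fun y => f' (u y)) x := hf' hu
  change Sm (fun y => f (u y) - f' (u y)) x
  filter_upwards [h1, h2] with y h3 h4 using h3.sub h4

/-! ### the radial direction -/

/-- the radial vector is in the kernel of a homogeneous form -/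
theorem iprod_nrm {E : Type} [NormedAddCommGroup E] [NormedSpace ℝ E] [FiniteDimensional ℝ E]
    (ρ : Form (SB D F)) {u : E → X} {x : E} (hu : D.At u x) {y : F} (hy : y ≠ 0) :
    iprod ((0, y) : E × F) ((Form.pull nrm map_nrm ρ : Form (PB D F)).val (cylF u) (x, y)) =
      0 := by
  set τ : Form (PB D F) := Form.pull nrm map_nrm ρ with hτ
  set w := τ.val (cylF u) (x, y) with hw
  have hat : (PB D F).At (cylF (F := F) u) (x, y) :=
    ⟨cylF_at hu y, continuous_snd.continuousAt.eventually_ne hy⟩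
  let k : (E × F) × ℝ → E × F := fun q => (q.1.1, Real.exp q.2 • q.1.2)
  have hk0 : k ((x, y), 0) = (x, y) := by
    change (x, Real.exp 0 • y) = (x, y)
    rw [Real.exp_zero, one_smul]
  have hk : ContDiff ℝ ∞ k :=
    (contDiff_fst.comp contDiff_fst).prodMk
      ((Real.contDiff_exp.comp contDiff_snd).smul (contDiff_snd.comp contDiff_fst))
  have hat' : (PB D F).At (cylF (F := F) u) (k ((x, y), 0)) := by
    rw [hk0]
    exact hat
  set A := fderiv ℝ k ((x, y), 0) with hA
  have e1 : τ.val (cylF u ∘ k) ((x, y), 0) = Fm.pull A w := by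
    have h1 := τ.nat (u := cylF u) (g := k) (x := ((x, y), 0)) hat' (Sm.of_contDiff hk _)
    rw [hk0] at h1
    exact h1
  have e2 : τ.val (cylF u ∘ k) ((x, y), 0) =
      Fm.pull (ContinuousLinearMap.fst ℝ (E × F) ℝ) w := by
    have h1 := τ.nat (u := cylF u) (g := (Prod.fst : (E × F) × ℝ → E × F)) (x := ((x, y), 0)) hat
      (Sm.of_contDiff contDiff_fst _)
    rw [fderiv_fst] at h1
    refine Eq.trans ?_ h1
    have hat1 : (PB D F).At (cylF (F := F) u ∘ k) ((x, y), 0) :=
      (PB D F).comp (u := cylF u) (g := k) (x := ((x, y), 0)) hat' (Sm.of_contDiff hk _)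
    have hat2 : (PB D F).At (cylF (F := F) u ∘ (Prod.fst : (E × F) × ℝ → E × F))
        ((x, y), 0) :=
      (PB D F).comp (u := cylF u) (g := (Prod.fst : (E × F) × ℝ → E × F)) (x := ((x, y), 0)) hat
        (Sm.of_contDiff contDiff_fst _)
    rw [hτ, Form.pull_val _ _ hat1, Form.pull_val _ _ hat2]
    congr 1
    funext q
    change (u q.1.1, ‖Real.exp q.2 • q.1.2‖⁻¹ • Real.exp q.2 • q.1.2) =
      (u q.1.1, ‖q.1.2‖⁻¹ • q.1.2)
    rw [norm_smul, Real.norm_of_nonneg (Real.exp_pos _).le, mul_inv, smul_smul,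
      mul_right_comm, inv_mul_cancel₀ (Real.exp_pos _).ne', one_mul]
  have hAd : HasFDerivAt k A ((x, y), 0) :=
    (hk.differentiable (by norm_num)).differentiableAt.hasFDerivAt
  -- the two directional derivatives
  have hA1 : A ((0, 0), 1) = ((0, y) : E × F) := by
    have h1 : HasDerivAt (fun t : ℝ => k ((x, y), t)) (A ((0, 0), 1)) 0 := by
      have h2 : HasDerivAt (fun t : ℝ => (((x, y), t) : (E × F) × ℝ)) ((0, 0), 1) 0 :=
        (hasDerivAt_const (0 : ℝ) ((x, y) : E × F)).prodMk (hasDerivAt_id (0 : ℝ))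
      exact HasFDerivAt.comp_hasDerivAt (0 : ℝ) hAd h2
    have h3 : HasDerivAt (fun t : ℝ => k ((x, y), t)) ((0, y) : E × F) 0 := by
      refine (hasDerivAt_const (0 : ℝ) x).prodMk ?_
      have h4 := (Real.hasDerivAt_exp 0).smul_const y
      rw [Real.exp_zero, one_smul] at h4
      exact h4
    exact h1.unique h3
  have hA2 : A.comp (ContinuousLinearMap.inl ℝ (E × F) ℝ) =
      ContinuousLinearMap.id ℝ (E × F) := by
    have h1 : HasFDerivAt (fun p : E × F => k (p, 0))
        (A.comp (ContinuousLinearMap.inl ℝ (E × F) ℝ)) (x, y) :=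
      HasFDerivAt.comp (g := k) (f := fun p : E × F => (p, (0 : ℝ))) (x, y) hAd
        (hasFDerivAt_prodMk_left (x, y) (0 : ℝ))
    have h2 : (fun p : E × F => k (p, 0)) = id := by
      funext p
      change (p.1, Real.exp 0 • p.2) = p
      rw [Real.exp_zero, one_smul]
    rw [h2] at h1
    exact h1.unique (hasFDerivAt_id _)
  have e3 : Fm.pull A (iprod ((0, y) : E × F) w) = 0 := by
    have h1 := congrArg (iprod (((0, 0), 1) : (E × F) × ℝ)) (e1.symm.trans e2)
    rw [pull_iprod, pull_iprod, hA1] at h1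
    rw [h1]
    have h2 : (ContinuousLinearMap.fst ℝ (E × F) ℝ) (((0, 0), 1) : (E × F) × ℝ) = 0 := rfl
    rw [h2, Q.iprod_zero_left, map_zero]
  have e4 := congrArg (Fm.pull (ContinuousLinearMap.inl ℝ (E × F) ℝ)) e3
  rw [← pull_comp_apply, hA2, map_zero] at e4
  rw [Fm.pull_id] at e4
  exact e4

variable [MeasurableSpace F] [BorelSpace F] {m : ℕ} (o : OrthonormalBasis (Fin m) ℝ F)

/-- the fibre integral of a homogeneous form times a function vanishes -/
theorem fi_fn_nrm {c : X × F → ℝ} (hc : (D1 D F).Map (Dif.lin ℝ) c)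
    (hS : (Form.fn c hc).Supp {p | p.2 ≠ 0}) {R : ℝ} (hR : Form.VC (Form.fn c hc) R)
    (ρ : Form (SB D F)) :
    Form.fi o (Form.mx (Form.fn c hc) hS (Form.pull nrm map_nrm ρ : Form (PB D F))) = 0 :=
  Form.ext_val fun E _ _ _ u x hu => by
    have hv : (Form.mx (Form.fn c hc) hS
        (Form.pull nrm map_nrm ρ : Form (PB D F))).VC R := fun {E'} _ _ _ {u' x'} h1 h2 => by
      rw [Form.mx_val, hR h1 h2, zero_mul]
    rw [Form.fi_val hv hu, Form.zero_val, fib]
    refine integral_eq_zero_of_ae (Eventually.of_forall fun y => ?_)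
    change slice _ _ = 0
    by_cases hy : y = 0
    · subst hy
      rw [Form.mx_val]
      rcases hS.out (cylF_at (F := F) hu 0) with h1 | h1
      · exact absurd rfl h1.self_of_nhds
      · rw [h1.self_of_nhds, zero_mul, map_zero]
    · have h1 := WG.slice_eq_zero (E := E) o.toBasis (z := y)
        (w := (Form.mx (Form.fn c hc) hS
          (Form.pull nrm map_nrm ρ : Form (PB D F))).val (cylF u) (x, y)) hy ?_
      · rw [OrthonormalBasis.coe_toBasis] at h1
        exact h1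
      · rw [Form.mx_val, Form.fn_val _ _ (cylF_at hu y), ← Algebra.smul_def, map_smul,
          iprod_nrm ρ hu hy, smul_zero]

/-- **the fibre integral over the spheres and normalised linear maps** -/
theorem si_lin {g : G → F →L[ℝ] F} {N s : ℝ} (hg : Gl DG g N s) (σ : Form (SB DG F)) :
    si o (Form.pull (nl g) hg.map_nl σ) = s • si o σ := by
  -- the function measuring the difference of the cut-offs
  have hc : (D1 DG F).Map (Dif.lin ℝ) (fun p : G × F => chi p - chi (p.1, g p.1 p.2)) :=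
    map_fsub Co.map_chi hg.map_chi
  set δ : Form (D1 DG F) := Form.fn _ hc with hδ
  have hδe : δ = chf DG F -
      Form.pull (fun p : G × F => (p.1, g p.1 p.2)) hg.map_lin (chf DG F) :=
    Form.ext_val fun E _ _ _ u x hu => by
      rw [hδ, Form.fn_val _ _ hu, Form.sub_val, Form.pull_val _ _ hu, chf, Form.fn_val _ _ hu,
        Form.fn_val _ _ (hg.map_lin hu), ← map_sub]
      rfl
  have hS2 : (Form.pull (fun p : G × F => (p.1, g p.1 p.2)) hg.map_lin (chf DG F)).Supp
      {p | p.2 ≠ 0} := by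
    refine ((supp_chf (D := DG) (F := F)).pull hg.map_lin).mono ?_
    intro p hp h0
    refine hp ?_
    change g p.1 p.2 = 0
    have h1 : p.2 = 0 := h0
    rw [h1, map_zero]
  have hS : δ.Supp {p | p.2 ≠ 0} := by
    rw [hδe]
    exact supp_chf.sub hS2
  have hR : δ.VC (max N 1) := fun {E} _ _ _ {u x} hu hx => by
    rw [hδ, Form.fn_val _ _ hu, chi_eq_one ((le_max_right _ _).trans hx.le), chi_eq_one, sub_self,
      map_zero]
    have h1 : ‖(u x).2‖ ≤ max N 0 * ‖g (u x).1 (u x).2‖ := hg.low' (u := fun y => (u y).1) hu.1 _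
    change 1 ≤ ‖g (u x).1 (u x).2‖
    by_contra h2
    have h3 : ‖g (u x).1 (u x).2‖ < 1 := lt_of_not_ge h2
    have h4 : max N 0 * ‖g (u x).1 (u x).2‖ ≤ max N 0 :=
      mul_le_of_le_one_right (le_max_right _ _) h3.le
    have h5 : max N 0 ≤ max N 1 := max_le_max le_rfl zero_le_one
    linarith
  -- the two forms
  set τ : Form (PB DG F) := Form.pull (fun p => (p.1, g p.1 p.2)) hg.map_PB
    (Form.pull nrm map_nrm σ) with hτ
  have hτ1 : (Form.pull nrm map_nrm (Form.pull (nl g) hg.map_nl σ) : Form (PB DG F)) = τ := by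
    have hk : (PB DG F).Map (SB DG F) (fun p => nrm (p.1, g p.1 p.2)) := fun hu =>
      map_nrm (hg.map_PB hu)
    have hpp := pull_pull (k := fun p : G × F => nrm (p.1, g p.1 p.2)) hg.map_PB map_nrm hk
      (fun p => rfl) σ
    refine Eq.trans ?_ hpp.symm
    refine Form.ext_val fun E _ _ _ u x hu => ?_
    rw [Form.pull_val _ _ hu, Form.pull_val _ _ (map_nrm hu), Form.pull_val _ _ hu]
    refine (σ.congr (hk hu) ?_).symm
    filter_upwards [hu.2] with y hy
    have h0 : (u y).2 ≠ 0 := hy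
    change ((u y).1, ‖g (u y).1 (u y).2‖⁻¹ • g (u y).1 (u y).2) =
      ((u y).1, ‖g (u y).1 (‖(u y).2‖⁻¹ • (u y).2)‖⁻¹ • g (u y).1 (‖(u y).2‖⁻¹ • (u y).2))
    rw [map_smul, norm_smul, norm_inv, norm_norm, mul_inv, _root_.inv_inv, smul_smul,
      mul_right_comm, mul_inv_cancel₀ (norm_ne_zero_iff.2 h0), one_mul]
  have h1 : dx (Form.pull (nl g) hg.map_nl σ) =
      Form.pull (fun p => (p.1, g p.1 p.2)) hg.map_lin (dx σ) +
        Form.mx δ.d hS.d τ := by
    refine Form.ext_val fun E _ _ _ u x hu => ?_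
    rw [Form.add_val, Form.pull_val _ _ hu, Co.dx, Co.dx, Form.mx_val, Form.mx_val, Form.mx_val,
      hτ1]
    have h2 : δ.d.val u x = (chf DG F).d.val u x -
        (chf DG F).d.val ((fun p : G × F => (p.1, g p.1 p.2)) ∘ u) x := by
      rw [hδe, Form.d_sub, Form.sub_val, ← Form.pull_d, Form.pull_val _ _ hu]
    rw [h2, sub_mul]
    have h3 : (chf DG F).d.val ((fun p : G × F => (p.1, g p.1 p.2)) ∘ u) x *
        (Form.pull nrm map_nrm σ : Form (PB DG F)).val
          ((fun p : G × F => (p.1, g p.1 p.2)) ∘ u) x =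
        (chf DG F).d.val ((fun p : G × F => (p.1, g p.1 p.2)) ∘ u) x * τ.val u x := by
      rcases (supp_chf (D := DG) (F := F)).d.out (hg.map_lin hu) with h4 | h4
      · congr 1
        have h5 : (PB DG F).At u x := by
          refine ⟨hu, ?_⟩
          filter_upwards [h4] with y hy h6
          refine hy ?_
          change g (u y).1 (u y).2 = 0
          have h7 : (u y).2 = 0 := h6
          rw [h7, map_zero]
        rw [hτ, Form.pull_val hg.map_PB _ h5]
      · rw [h4.self_of_nhds, zero_mul, zero_mul]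
    rw [h3]
    abel
  have hv1 : (Form.pull (fun p => (p.1, g p.1 p.2)) hg.map_lin (dx σ)).VC (max N 0) := by
    intro E _ _ _ u x hu hx
    rw [Form.pull_val hg.map_lin _ hu]
    refine (vc_dx σ).out (hg.map_lin hu) ?_
    change 1 < ‖g (u x).1 (u x).2‖
    have h2 : ‖(u x).2‖ ≤ max N 0 * ‖g (u x).1 (u x).2‖ := hg.low' (u := fun y => (u y).1) hu.1 _
    by_contra h3
    have h4 : ‖g (u x).1 (u x).2‖ ≤ 1 := le_of_not_gt h3
    have h5 : max N 0 * ‖g (u x).1 (u x).2‖ ≤ max N 0 :=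
      mul_le_of_le_one_right (le_max_right _ _) h4
    linarith
  have hv2 : ∀ τ' : Form (PB DG F), (Form.mx δ hS τ').VC (max N 1) :=
    fun τ' {E} _ _ _ {u x} hu hx => by rw [Form.mx_val, hR hu hx, zero_mul]
  have h2 : Form.mx δ.d hS.d τ = (Form.mx δ hS τ).d - Form.mx δ hS τ.d := by
    have h3 := Form.mx_d δ hS τ
    have h4 : Form.mx δ.sg hS.sg τ.d = Form.mx δ hS τ.d :=
      Form.mx_congr (Form.sg_fn _ _) rfl
    rw [h3, h4, add_sub_cancel_right]
  have h3 : Form.fi o (Form.mx δ hS τ) = 0 := by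
    rw [← hτ1]
    exact fi_fn_nrm o hc hS hR _
  have h4 : Form.fi o (Form.mx δ hS τ.d) = 0 := by
    rw [← hτ1, ← Form.pull_d]
    exact fi_fn_nrm o hc hS hR _
  have h5 : Form.fi o (Form.mx δ.d hS.d τ) = 0 := by
    rw [h2, Form.fi_sub (Form.VC.d (hv2 τ)) (hv2 τ.d), h4, sub_zero, Form.fi_d (hv2 τ), h3]
    have : (0 : Form DG).d = 0 := Form.d_zero
    rw [this, smul_zero]
  have hv3 : (Form.mx δ.d hS.d τ).VC (max N 1) := fun {E} _ _ _ {u x} hu hx => by
    rw [Form.mx_val, Form.VC.d hR hu hx, zero_mul]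
  rw [si, h1, Form.fi_add hv1 hv3, h5, add_zero]
  -- the linear change of variables
  refine Form.ext_val fun E _ _ _ u x hu => ?_
  rw [Form.smul_val, Form.fi_val hv1 hu, si, Form.fi_val (vc_of_van (vc_dx σ)) hu]
  have hgu : Sm (g ∘ u) x := hg.map hu
  have h6 := fib_lin o ((dx σ).val (cylF u)) (g := g ∘ u) hgu.differentiableAt (hg.ne hu)
  have h7 : LinearMap.det (((g ∘ u) x : F →L[ℝ] F) : F →ₗ[ℝ] F) *
      |LinearMap.det (((g ∘ u) x : F →L[ℝ] F) : F →ₗ[ℝ] F)|⁻¹ = s := hg.sgn hu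
  rw [h7] at h6
  rw [← h6]
  refine integral_congr_ae (ae_of_all _ fun ξ => ?_)
  have h8 : (fun p : G × F => (p.1, g p.1 p.2)) ∘ cylF u =
      cylF u ∘ fun p : E × F => (p.1, (g ∘ u) p.1 p.2) := rfl
  have h9 : Sm (fun p : E × F => (p.1, (g ∘ u) p.1 p.2)) (x, ξ) := by
    refine Sm.prodMk (Sm.of_contDiff contDiff_fst _) (sm_clm ?_ (Sm.of_contDiff contDiff_snd _))
    exact Sm.comp (f := g ∘ u) (g := Prod.fst) (x := ((x, ξ) : E × F)) hgu
      (Sm.of_contDiff contDiff_fst _)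
  change slice o _ = slice o _
  rw [Form.pull_val hg.map_lin _ (cylF_at hu ξ), h8, (dx σ).nat (u := cylF u)
    (g := fun p : E × F => (p.1, (g ∘ u) p.1 p.2)) (x := (x, ξ)) (cylF_at hu _) h9]
  rfl

end

end Vale.Agent.P231.P1
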